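import Crest.Agent.WLH.Inst
import Crest.Agent.WL.BookP3
import Crest.Agent.WL.BookP8

/-!
# Row 290 (S0437): the parities of the book of a table machine are not a boundary
-/

set_option autoImplicit false

namespace Crest.Agent.WL

variable {B C : Type} [DecidableEq B] [DecidableEq C]

/-- A global solution gives Duplicator's family for any number of pebbles. -/
def DFam.ofSol (X : XSys B C) (z : B → ZMod 2) (h : ∀ c, X.Sat z c) (t : ℕ) : DFam X t where
  F := fun _ g => g = z
  restr := fun _ _ _ h _ => h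
  sat := fun _ _ hg c _ => by rw [hg]; exact h c
  ext := fun _ _ hg _ _ => ⟨z, fun _ _ => by rw [hg], rfl⟩
  ne := ⟨z, rfl⟩

namespace BookData

variable (D : BookData)

/-- A global solution satisfies the gate equations. -/
theorem global_gate {b : D.Chk → ZMod 2} (z : D.Bit → ZMod 2)
    (h : ∀ c : D.Chk, ((D.xs.inc c).map z).sum = b c) (σ : ℕ → D.Γ) (hσ : D.GWord σ) :
    D.oflux z 0 (fun k => D.pr 0 (σ k)) + D.oflux z 1 (fun k => D.pr 1 (σ k)) +
      D.oflux z 2 (fun k => D.pr 2 (σ k)) = D.sp b σ hσ := by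
  let F : DFam (D.xsP b) (D.n + 2) := DFam.ofSol (D.xsP b) z h _
  have hL : D.L - 1 < D.L := by
    have := D.hL
    omega
  have h1 : ∀ i, D.oflux z i (fun k => D.pr i (σ k)) = D.ef z σ i 0 + D.pp b σ hσ i := by
    intro i
    obtain ⟨g', h2, h3⟩ := D.to_outer F σ hσ i hL z rfl
    have h4 : g' = z := h2
    rw [h4] at h3
    exact h3
  have h2 := D.col_centre F σ hσ z rfl
  rw [h1, h1, h1]
  unfold sp
  rw [← h2]
  ring

end BookData

end Crest.Agent.WL

namespace Crest.Agent.WLH

open Crest.Agent.WLM Crest.Agent.WL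

theorem book_not_bd (T : Tab) {N b : ℕ} (hN : 1 ≤ N) (z : (book T N b hN).Bit → ZMod 2)
    (h : ∀ c : (book T N b hN).Chk, (((book T N b hN).xs.inc c).map z).sum =
      (book T N b hN).xs.par c) : False := by
  have hw : ∀ h : Fin 3, (book T N b hN).GWord (fun _ => .o h) := fun h =>
    (gword_iff hN _).2 (gwok_o h)
  have g0 := BookData.global_gate _ z h _ (hw 0)
  have g1 := BookData.global_gate _ z h _ (hw 1)
  have g2 := BookData.global_gate _ z h _ (hw 2)
  rw [BookData.sp_par] at g0 g1 g2
  have e0 : ¬ (book T N b hN).odd ((book T N b hN).nm (.o 0 : GLet T.length N b)) := by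
    show ¬ ((0 : Fin 3) = 2)
    decide
  have e1 : ¬ (book T N b hN).odd ((book T N b hN).nm (.o 1 : GLet T.length N b)) := by
    show ¬ ((1 : Fin 3) = 2)
    decide
  have e2 : (book T N b hN).odd ((book T N b hN).nm (.o 2 : GLet T.length N b)) := rfl
  rw [if_neg e0] at g0
  rw [if_neg e1] at g1
  rw [if_pos e2] at g2
  have hone : ∀ i : Fin 3, (book T N b hN).oflux z i (fun _ => .one) = 0 := by
    intro i
    unfold BookData.oflux
    exact if_pos (show closedN (L := T.length) (N := N) i (Sum.inr (Sum.inr true)) from rfl)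
  have g0' : (book T N b hN).oflux z 0 (fun _ => .fact 1 0 0 0) +
      (book T N b hN).oflux z 1 (fun _ => .vo) + (book T N b hN).oflux z 2 (fun _ => .one) = 0 := g0
  have g1' : (book T N b hN).oflux z 0 (fun _ => .fact 1 0 0 0) +
      (book T N b hN).oflux z 1 (fun _ => .one) + (book T N b hN).oflux z 2 (fun _ => .vo) = 0 := g1
  have g2' : (book T N b hN).oflux z 0 (fun _ => .one) +
      (book T N b hN).oflux z 1 (fun _ => .vo) + (book T N b hN).oflux z 2 (fun _ => .vo) = 1 := g2
  rw [hone] at g0' g1' g2'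
  generalize (book T N b hN).oflux z 0 (fun _ => .fact 1 0 0 0) = x at *
  generalize (book T N b hN).oflux z 1 (fun _ => .vo) = y at *
  generalize (book T N b hN).oflux z 2 (fun _ => .vo) = w at *
  clear g0 g1 g2 hone e0 e1 e2 hw h z
  revert x y w
  decide

end Crest.Agent.WLH
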