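import Crest.Agent.WLH.FinSys

/-!
# Row 290, module H: the finite system on numbers

`F f p`, `f = 0..5`: the accessors `kd, rg, bt, l0, l1, l2` of the table.
-/

set_option autoImplicit false
set_option linter.unusedSimpArgs false
set_option linter.unusedVariables false

namespace Crest.Agent.WLH

open Crest.Agent.WLM Crest.Agent.WL

/-- `F` gives the accessors of `T` -/
structure IsF (T : Tab) (F : ℕ → ℕ → ℕ) : Prop where
  kd : ∀ p, F 0 p = kd T p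
  rg : ∀ p, F 1 p = rg T p
  bt : ∀ p, F 2 p = bt T p
  l0 : ∀ p, F 3 p = l0 T p
  l1 : ∀ p, F 4 p = l1 T p
  l2 : ∀ p, F 5 p = l2 T p

def clokF (F : ℕ → ℕ → ℕ) (κ p x : ℕ) : Prop :=
  κ = 0 ∨ κ = 1 ∨ (κ = 2 ∧ F 0 p = 1) ∨ (κ = 3 ∧ F 0 p = 1) ∨
  (κ = 4 ∧ 1 ≤ F 0 p ∧ x ≠ F 1 p) ∨ (κ = 5 ∧ 1 ≤ F 0 p ∧ x ≠ F 1 p) ∨
  (κ = 6 ∧ F 0 p = 2) ∨ (κ = 7 ∧ F 0 p = 2) ∨ (κ = 8 ∧ F 0 p = 2) ∨
  (κ = 9 ∧ F 0 p = 2 ∧ F 0 x = 1) ∨ (κ = 10 ∧ F 0 p = 2) ∨ (κ = 11 ∧ F 0 p = 2) ∨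
  κ = 12 ∨ (κ = 13 ∧ p < 6)

theorem clokF_iff {T : Tab} {F : ℕ → ℕ → ℕ} (hF : IsF T F) (κ p x : ℕ) :
    clokF F κ p x ↔ clok T κ p x := by
  unfold clokF clok
  simp only [hF.kd, hF.rg]

def fXk (L : ℕ) (F : ℕ → ℕ → ℕ) (κ p x : ℕ) : ℕ :=
  if κ = 0 then 0 else if κ = 1 then 0 else if κ = 2 then 2 else if κ = 3 then 2 else 
  if κ = 4 then 2 else if κ = 5 then 2 else if κ = 6 then 2 else if κ = 7 then 2 else 
  if κ = 8 then 2 else if κ = 9 then 5 else if κ = 10 then 5 else if κ = 11 then 5 else 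
  if κ = 12 then 2 else 1

def fXi (L : ℕ) (F : ℕ → ℕ → ℕ) (κ p x : ℕ) : ℕ :=
  if κ = 0 then 0 else if κ = 1 then 0 else if κ = 2 then p else if κ = 3 then p else 
  if κ = 4 then p else if κ = 5 then p else if κ = 6 then p else if κ = 7 then p else 
  if κ = 8 then p else if κ = 9 then p else if κ = 10 then p else if κ = 11 then p else 
  if κ = 12 then L else 0

def fx1 (L : ℕ) (F : ℕ → ℕ → ℕ) (κ p x : ℕ) : ℕ :=
  if κ = 0 then 0 else if κ = 1 then 0 else if κ = 2 then 1 else if κ = 3 then 1 else 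
  if κ = 4 then 1 else if κ = 5 then 1 else if κ = 6 then 1 else if κ = 7 then 1 else 
  if κ = 8 then 1 else if κ = 9 then 1 else if κ = 10 then 1 else if κ = 11 then 1 else 
  if κ = 12 then 1 else 0

def fx2 (L : ℕ) (F : ℕ → ℕ → ℕ) (κ p x : ℕ) : ℕ :=
  if κ = 0 then 0 else if κ = 1 then 0 else if κ = 2 then 0 else if κ = 3 then 0 else 
  if κ = 4 then 0 else if κ = 5 then 0 else if κ = 6 then 0 else if κ = 7 then 0 else 
  if κ = 8 then 0 else if κ = 9 then 2 else if κ = 10 then 2 else if κ = 11 then 2 else 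
  if κ = 12 then 0 else 0

def fYk (L : ℕ) (F : ℕ → ℕ → ℕ) (κ p x : ℕ) : ℕ :=
  if κ = 0 then 0 else if κ = 1 then 0 else if κ = 2 then 2 else if κ = 3 then 2 else 
  if κ = 4 then 3 else if κ = 5 then 4 else if κ = 6 then 4 else if κ = 7 then 4 else 
  if κ = 8 then 3 else if κ = 9 then 2 else if κ = 10 then 3 else if κ = 11 then 4 else 
  if κ = 12 then 2 else 1

def fYi (L : ℕ) (F : ℕ → ℕ → ℕ) (κ p x : ℕ) : ℕ :=
  if κ = 0 then 0 else if κ = 1 then 0 else if κ = 2 then p else if κ = 3 then p else 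
  if κ = 4 then x else if κ = 5 then x else if κ = 6 then F 1 p else if κ = 7 then F 1 p else 
  if κ = 8 then F 1 p else if κ = 9 then x else if κ = 10 then F 1 p else if κ = 11 then F 1 p else 
  if κ = 12 then L else 0

def fy1 (L : ℕ) (F : ℕ → ℕ → ℕ) (κ p x : ℕ) : ℕ :=
  if κ = 0 then 0 else if κ = 1 then 0 else if κ = 2 then 1 else if κ = 3 then 1 else 
  if κ = 4 then 1 else if κ = 5 then 1 else if κ = 6 then 1 else if κ = 7 then 1 else 
  if κ = 8 then 1 else if κ = 9 then 2 else if κ = 10 then 2 else if κ = 11 then 2 else 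
  if κ = 12 then 1 else 0

def fy2 (L : ℕ) (F : ℕ → ℕ → ℕ) (κ p x : ℕ) : ℕ :=
  if κ = 0 then 0 else if κ = 1 then 0 else if κ = 2 then 0 else if κ = 3 then 0 else 
  if κ = 4 then 2 else if κ = 5 then 0 else if κ = 6 then 0 else if κ = 7 then 0 else 
  if κ = 8 then 2 else if κ = 9 then 0 else if κ = 10 then 3 else if κ = 11 then 0 else 
  if κ = 12 then 0 else 0

def fZk (L : ℕ) (F : ℕ → ℕ → ℕ) (κ p x : ℕ) : ℕ :=
  if κ = 0 then 2 else if κ = 1 then 4 else if κ = 2 then 2 else if κ = 3 then 3 else 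
  if κ = 4 then 3 else if κ = 5 then 4 else if κ = 6 then 2 else if κ = 7 then 4 else 
  if κ = 8 then 5 else if κ = 9 then 2 else if κ = 10 then 3 else if κ = 11 then 4 else 
  if κ = 12 then 1 else p

def fZi (L : ℕ) (F : ℕ → ℕ → ℕ) (κ p x : ℕ) : ℕ :=
  if κ = 0 then 0 else if κ = 1 then x else if κ = 2 then F 3 p else if κ = 3 then F 1 p else 
  if κ = 4 then x else if κ = 5 then x else if κ = 6 then F 3 p else if κ = 7 then F 1 p else 
  if κ = 8 then p else if κ = 9 then (if F 2 x = 1 then F 5 p else F 4 p) else if κ = 10 then F 1 p else if κ = 11 then F 1 p else 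
  if κ = 12 then 0 else x

def fz1 (L : ℕ) (F : ℕ → ℕ → ℕ) (κ p x : ℕ) : ℕ :=
  if κ = 0 then 0 else if κ = 1 then 0 else if κ = 2 then 4 else if κ = 3 then 4 else 
  if κ = 4 then 4 else if κ = 5 then 4 else if κ = 6 then 4 else if κ = 7 then 4 else 
  if κ = 8 then 1 else if κ = 9 then 4 else if κ = 10 then 4 else if κ = 11 then 4 else 
  if κ = 12 then 0 else 2

def fz2 (L : ℕ) (F : ℕ → ℕ → ℕ) (κ p x : ℕ) : ℕ :=
  if κ = 0 then 0 else if κ = 1 then 0 else if κ = 2 then 0 else if κ = 3 then 1 else 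
  if κ = 4 then 2 else if κ = 5 then 0 else if κ = 6 then 0 else if κ = 7 then 0 else 
  if κ = 8 then 2 else if κ = 9 then 0 else if κ = 10 then 3 else if κ = 11 then 0 else 
  if κ = 12 then 0 else 3

theorem fXk_eq {T : Tab} {F : ℕ → ℕ → ℕ} (hF : IsF T F) {κ : ℕ} (hκ : κ < 14) (p x : ℕ) :
    fXk T.length F κ p x = (cl T κ p x).Xk := by
  interval_cases κ <;> simp [fXk, cl, hF.rg, hF.bt, hF.l0, hF.l1, hF.l2]

theorem fXi_eq {T : Tab} {F : ℕ → ℕ → ℕ} (hF : IsF T F) {κ : ℕ} (hκ : κ < 14) (p x : ℕ) :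
    fXi T.length F κ p x = (cl T κ p x).Xi := by
  interval_cases κ <;> simp [fXi, cl, hF.rg, hF.bt, hF.l0, hF.l1, hF.l2]

theorem fx1_eq {T : Tab} {F : ℕ → ℕ → ℕ} (hF : IsF T F) {κ : ℕ} (hκ : κ < 14) (p x : ℕ) :
    fx1 T.length F κ p x = (cl T κ p x).x1 := by
  interval_cases κ <;> simp [fx1, cl, hF.rg, hF.bt, hF.l0, hF.l1, hF.l2]

theorem fx2_eq {T : Tab} {F : ℕ → ℕ → ℕ} (hF : IsF T F) {κ : ℕ} (hκ : κ < 14) (p x : ℕ) :
    fx2 T.length F κ p x = (cl T κ p x).x2 := by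
  interval_cases κ <;> simp [fx2, cl, hF.rg, hF.bt, hF.l0, hF.l1, hF.l2]

theorem fYk_eq {T : Tab} {F : ℕ → ℕ → ℕ} (hF : IsF T F) {κ : ℕ} (hκ : κ < 14) (p x : ℕ) :
    fYk T.length F κ p x = (cl T κ p x).Yk := by
  interval_cases κ <;> simp [fYk, cl, hF.rg, hF.bt, hF.l0, hF.l1, hF.l2]

theorem fYi_eq {T : Tab} {F : ℕ → ℕ → ℕ} (hF : IsF T F) {κ : ℕ} (hκ : κ < 14) (p x : ℕ) :
    fYi T.length F κ p x = (cl T κ p x).Yi := by
  interval_cases κ <;> simp [fYi, cl, hF.rg, hF.bt, hF.l0, hF.l1, hF.l2]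

theorem fy1_eq {T : Tab} {F : ℕ → ℕ → ℕ} (hF : IsF T F) {κ : ℕ} (hκ : κ < 14) (p x : ℕ) :
    fy1 T.length F κ p x = (cl T κ p x).y1 := by
  interval_cases κ <;> simp [fy1, cl, hF.rg, hF.bt, hF.l0, hF.l1, hF.l2]

theorem fy2_eq {T : Tab} {F : ℕ → ℕ → ℕ} (hF : IsF T F) {κ : ℕ} (hκ : κ < 14) (p x : ℕ) :
    fy2 T.length F κ p x = (cl T κ p x).y2 := by
  interval_cases κ <;> simp [fy2, cl, hF.rg, hF.bt, hF.l0, hF.l1, hF.l2]

theorem fZk_eq {T : Tab} {F : ℕ → ℕ → ℕ} (hF : IsF T F) {κ : ℕ} (hκ : κ < 14) (p x : ℕ) :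
    fZk T.length F κ p x = (cl T κ p x).Zk := by
  interval_cases κ <;> simp [fZk, cl, hF.rg, hF.bt, hF.l0, hF.l1, hF.l2]

theorem fZi_eq {T : Tab} {F : ℕ → ℕ → ℕ} (hF : IsF T F) {κ : ℕ} (hκ : κ < 14) (p x : ℕ) :
    fZi T.length F κ p x = (cl T κ p x).Zi := by
  interval_cases κ <;> simp [fZi, cl, hF.rg, hF.bt, hF.l0, hF.l1, hF.l2]

theorem fz1_eq {T : Tab} {F : ℕ → ℕ → ℕ} (hF : IsF T F) {κ : ℕ} (hκ : κ < 14) (p x : ℕ) :
    fz1 T.length F κ p x = (cl T κ p x).z1 := by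
  interval_cases κ <;> simp [fz1, cl, hF.rg, hF.bt, hF.l0, hF.l1, hF.l2]

theorem fz2_eq {T : Tab} {F : ℕ → ℕ → ℕ} (hF : IsF T F) {κ : ℕ} (hκ : κ < 14) (p x : ℕ) :
    fz2 T.length F κ p x = (cl T κ p x).z2 := by
  interval_cases κ <;> simp [fz2, cl, hF.rg, hF.bt, hF.l0, hF.l1, hF.l2]

/-- digit selector on numbers -/
def seln (k t t' s u : ℕ) : ℕ :=
  if k = 0 then 0 else if k = 1 then t else if k = 2 then s else if k = 3 then u else t'

theorem seld_val {b : ℕ} (k : ℕ) (t t' s u : Fin (b + 1)) :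
    (seld k t t' s u).val = seln k t t' s u := by
  unfold seld seln
  split_ifs <;> rfl

/-- number of a fact letter -/
def fln (L b k i a c t t' s u : ℕ) : ℕ :=
  seln c t t' s u + (b + 1) * (seln a t t' s u + (b + 1) * (i % (L + 6) + (L + 6) * (k % 6)))

theorem fl_num {L N b : ℕ} (k i a c : ℕ) (t t' s u : Fin (b + 1)) :
    vnum (fl k i a c t t' s u : VLet L N b) = fln L b k i a c t t' s u := by
  unfold fl fln
  simp only [vnum, seld_val, Fin.val_ofNat]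

/-- role table: `n = 3 h + i` -/
def rolen (n : ℕ) : ℕ :=
  if n = 0 ∨ n = 3 then 0 else if n = 9 ∨ n = 12 then 1 else if n = 24 then 2
  else if n = 1 ∨ n = 5 ∨ n = 6 ∨ n = 7 ∨ n = 8 ∨ n = 18 then 3
  else if n = 10 ∨ n = 14 ∨ n = 15 ∨ n = 16 ∨ n = 17 ∨ n = 21 then 4
  else if n = 19 ∨ n = 23 ∨ n = 25 ∨ n = 26 then 5 else 6

theorem rolen_eq : ∀ (h : Fin 9) (i : Fin 3), rolen (3 * h + i) = (role h i).val := by decide

/-- number of a fresh letter -/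
def frn (L N b κ p x j h t t' s u : ℕ) : ℕ :=
  bV L b + (u + (b + 1) * (s + (b + 1) * (t' + (b + 1) * (t + (b + 1) * (h + 3 * (j + N * (x +
      (L + 6) * (p + (L + 6) * κ))))))))

/-- number of the letter of role `ρ` -/
def rln (L N b : ℕ) (F : ℕ → ℕ → ℕ) (ρ κ p x j t t' s u : ℕ) : ℕ :=
  if ρ = 0 then fln L b (fXk L F κ p x) (fXi L F κ p x) (fx1 L F κ p x) (fx2 L F κ p x) t t' s u
  else if ρ = 1 then
    fln L b (fYk L F κ p x) (fYi L F κ p x) (fy1 L F κ p x) (fy2 L F κ p x) t t' s u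
  else if ρ = 2 then
    fln L b (fZk L F κ p x) (fZi L F κ p x) (fz1 L F κ p x) (fz2 L F κ p x) t t' s u
  else if ρ = 3 then frn L N b κ p x j 0 t t' s u
  else if ρ = 4 then frn L N b κ p x j 1 t t' s u
  else if ρ = 5 then frn L N b κ p x j 2 t t' s u
  else bV L b + cV L N b

theorem rl_num {T : Tab} {N b : ℕ} {F : ℕ → ℕ → ℕ} (hF : IsF T F) (ρ : Fin 7) (κ : Fin 14)
    (p x : Fin (T.length + 6)) (j : Fin N) (t t' s u : Fin (b + 1)) :
    vnum (rl T ρ κ p x j t t' s u) = rln T.length N b F ρ κ p x j t t' s u := by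
  fin_cases ρ
  · show vnum (fl _ _ _ _ _ _ _ _) = fln _ _ _ _ _ _ _ _ _ _
    rw [fl_num, fXk_eq hF κ.isLt, fXi_eq hF κ.isLt, fx1_eq hF κ.isLt, fx2_eq hF κ.isLt]
  · show vnum (fl _ _ _ _ _ _ _ _) = fln _ _ _ _ _ _ _ _ _ _
    rw [fl_num, fYk_eq hF κ.isLt, fYi_eq hF κ.isLt, fy1_eq hF κ.isLt, fy2_eq hF κ.isLt]
  · show vnum (fl _ _ _ _ _ _ _ _) = fln _ _ _ _ _ _ _ _ _ _
    rw [fl_num, fZk_eq hF κ.isLt, fZi_eq hF κ.isLt, fz1_eq hF κ.isLt, fz2_eq hF κ.isLt]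
  · rfl
  · rfl
  · rfl
  · rfl

/-- odd part: `n = 3 h + i` -/
def oln (L N b n : ℕ) : ℕ :=
  if n = 0 ∨ n = 3 then (b + 1) * ((b + 1) * (L + 6))
  else if n = 2 ∨ n = 4 ∨ n = 6 then bV L b + cV L N b else bV L b + (cV L N b + 1)

theorem ol_num {L N b : ℕ} (h i : Fin 3) :
    vnum (ol h i : VLet L N b) = oln L N b (3 * h + i) := by
  have hA : vnum (.fact 1 0 0 0 : VLet L N b) = (b + 1) * ((b + 1) * (L + 6)) := by
    simp [vnum]
  fin_cases h <;> fin_cases i <;> first | exact hA | rfl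

/-! ## Decoding gate letters -/

def dU (b a : ℕ) : ℕ := a % (b + 1)
def dS (b a : ℕ) : ℕ := a / (b + 1) % (b + 1)
def dT' (b a : ℕ) : ℕ := a / (b + 1) / (b + 1) % (b + 1)
def dT (b a : ℕ) : ℕ := a / (b + 1) / (b + 1) / (b + 1) % (b + 1)
/-- the name number -/
def dN (b a : ℕ) : ℕ := a / (b + 1) / (b + 1) / (b + 1) / (b + 1)
def dH (b a : ℕ) : ℕ := dN b a % 9
def dJ (N b a : ℕ) : ℕ := dN b a / 9 % N
def dX (L N b a : ℕ) : ℕ := dN b a / 9 / N % (L + 6)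
def dP (L N b a : ℕ) : ℕ := dN b a / 9 / N / (L + 6) % (L + 6)
def dK (L N b a : ℕ) : ℕ := dN b a / 9 / N / (L + 6) / (L + 6)

/-- projection on numbers -/
def prjn (L N b : ℕ) (F : ℕ → ℕ → ℕ) (i a : ℕ) : ℕ :=
  if a < bG L N b then
    rln L N b F (rolen (3 * dH b a + i)) (dK L N b a) (dP L N b a) (dX L N b a) (dJ N b a) (dT b a)
      (dT' b a) (dS b a) (dU b a)
  else oln L N b (3 * (a - bG L N b) + i)

theorem dm_mod {n : ℕ} (i : Fin n) (X : ℕ) : (i.val + n * X) % n = i := by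
  rw [Nat.add_mul_mod_self_left, Nat.mod_eq_of_lt i.isLt]

theorem dm_div {n : ℕ} (i : Fin n) (X : ℕ) : (i.val + n * X) / n = X := by
  have : 0 < n := lt_of_le_of_lt (Nat.zero_le _) i.isLt
  rw [Nat.add_mul_div_left _ _ this, Nat.div_eq_of_lt i.isLt, Nat.zero_add]

section dec
variable {L N b : ℕ} (κ : Fin 14) (p x : Fin (L + 6)) (j : Fin N) (h : Fin 9)
  (t t' s u : Fin (b + 1))

theorem dU_g : dU b (gnum (.g κ p x j h t t' s u : GLet L N b)) = u := by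
  unfold dU gnum; rw [dm_mod]
theorem dS_g : dS b (gnum (.g κ p x j h t t' s u : GLet L N b)) = s := by
  unfold dS gnum; rw [dm_div, dm_mod]
theorem dT'_g : dT' b (gnum (.g κ p x j h t t' s u : GLet L N b)) = t' := by
  unfold dT' gnum; rw [dm_div, dm_div, dm_mod]
theorem dT_g : dT b (gnum (.g κ p x j h t t' s u : GLet L N b)) = t := by
  unfold dT gnum; rw [dm_div, dm_div, dm_div, dm_mod]
theorem dN_g : dN b (gnum (.g κ p x j h t t' s u : GLet L N b)) =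
    h + 9 * (j + N * (x + (L + 6) * (p + (L + 6) * κ))) := by
  unfold dN gnum; rw [dm_div, dm_div, dm_div, dm_div]
theorem dH_g : dH b (gnum (.g κ p x j h t t' s u : GLet L N b)) = h := by
  unfold dH; rw [dN_g, dm_mod]
theorem dJ_g : dJ N b (gnum (.g κ p x j h t t' s u : GLet L N b)) = j := by
  unfold dJ; rw [dN_g, dm_div, dm_mod]
theorem dX_g : dX L N b (gnum (.g κ p x j h t t' s u : GLet L N b)) = x := by
  unfold dX; rw [dN_g, dm_div, dm_div, dm_mod]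
theorem dP_g : dP L N b (gnum (.g κ p x j h t t' s u : GLet L N b)) = p := by
  unfold dP; rw [dN_g, dm_div, dm_div, dm_div, dm_mod]
theorem dK_g : dK L N b (gnum (.g κ p x j h t t' s u : GLet L N b)) = κ := by
  unfold dK; rw [dN_g, dm_div, dm_div, dm_div, dm_div]

theorem gnum_g_lt : gnum (.g κ p x j h t t' s u : GLet L N b) < bG L N b := by
  have := (pE (pE (pE (pE (pE (pE (pE (pE (Equiv.refl (Fin 14)) (L + 6)) (L + 6)) N)
    9) (b + 1)) (b + 1)) (b + 1)) (b + 1) ((((((((κ, p), x), j), h), t), t'), s), u)).isLt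
  exact this

end dec

theorem gnum_o {L N b : ℕ} (h : Fin 3) : gnum (.o h : GLet L N b) = bG L N b + h := rfl

theorem prj_num {T : Tab} {N b : ℕ} {F : ℕ → ℕ → ℕ} (hF : IsF T F) (i : Fin 3)
    (a : GLet T.length N b) : vnum (prj T i a) = prjn T.length N b F i (gnum a) := by
  rcases a with ⟨κ, p, x, j, h, t, t', s, u⟩ | ⟨h⟩
  · unfold prjn
    rw [if_pos (gnum_g_lt κ p x j h t t' s u), dU_g, dS_g, dT'_g, dT_g, dH_g, dJ_g, dX_g, dP_g,
      dK_g, rolen_eq]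
    exact rl_num hF _ κ p x j t t' s u
  · unfold prjn
    rw [gnum_o, if_neg (by omega), Nat.add_sub_cancel_left]
    exact ol_num h i

/-- equality of names -/
def samen (L N b a a' : ℕ) : Prop :=
  (a < bG L N b ∧ a' < bG L N b ∧ dN b a = dN b a') ∨ (bG L N b ≤ a ∧ a = a')

theorem same_num {L N b : ℕ} (a a' : GLet L N b) :
    gn a = gn a' ↔ samen L N b (gnum a) (gnum a') := by
  unfold samen
  rcases a with ⟨κ, p, x, j, h, t, t', s, u⟩ | ⟨h⟩ <;>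
  rcases a' with ⟨κ2, p2, x2, j2, h2, t2, t2', s2, u2⟩ | ⟨h2⟩
  · have h1 := gnum_g_lt κ p x j h t t' s u
    have h3 := gnum_g_lt κ2 p2 x2 j2 h2 t2 t2' s2 u2
    constructor
    · intro hh
      simp only [gn, Sum.inl.injEq, Prod.mk.injEq] at hh
      obtain ⟨rfl, rfl, rfl, rfl, rfl⟩ := hh
      exact Or.inl ⟨h1, h3, by rw [dN_g, dN_g]⟩
    · rintro (⟨_, _, hh⟩ | ⟨hh, _⟩)
      · have e1 := dK_g κ p x j h t t' s u
        have e2 := dK_g κ2 p2 x2 j2 h2 t2 t2' s2 u2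
        have e3 := dP_g κ p x j h t t' s u
        have e4 := dP_g κ2 p2 x2 j2 h2 t2 t2' s2 u2
        have e5 := dX_g κ p x j h t t' s u
        have e6 := dX_g κ2 p2 x2 j2 h2 t2 t2' s2 u2
        have e7 := dJ_g κ p x j h t t' s u
        have e8 := dJ_g κ2 p2 x2 j2 h2 t2 t2' s2 u2
        have e9 := dH_g κ p x j h t t' s u
        have e10 := dH_g κ2 p2 x2 j2 h2 t2 t2' s2 u2
        simp only [dK, dP, dX, dJ, dH, hh] at e1 e2 e3 e4 e5 e6 e7 e8 e9 e10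
        have a1 : κ = κ2 := Fin.ext (e1.symm.trans e2)
        have a2 : p = p2 := Fin.ext (e3.symm.trans e4)
        have a3 : x = x2 := Fin.ext (e5.symm.trans e6)
        have a4 : j = j2 := Fin.ext (e7.symm.trans e8)
        have a5 : h = h2 := Fin.ext (e9.symm.trans e10)
        subst a1 a2 a3 a4 a5
        rfl
      · omega
  · have h1 := gnum_g_lt κ p x j h t t' s u
    rw [gnum_o]
    constructor
    · intro hh; simp [gn] at hh
    · rintro (⟨_, hh, _⟩ | ⟨hh, _⟩) <;> omega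
  · have h1 := gnum_g_lt κ2 p2 x2 j2 h2 t2 t2' s2 u2
    rw [gnum_o]
    constructor
    · intro hh; simp [gn] at hh
    · rintro (⟨hh, _, _⟩ | ⟨_, hh⟩) <;> omega
  · rw [gnum_o, gnum_o]
    simp only [gn, Sum.inr.injEq]
    constructor
    · rintro rfl
      exact Or.inr ⟨by omega, rfl⟩
    · rintro (⟨hh, _, _⟩ | ⟨_, hh⟩)
      · omega
      · exact Fin.ext (by omega)

/-- allowed letters at a position, on numbers -/
def okn (L N b : ℕ) (F : ℕ → ℕ → ℕ) (m a : ℕ) : Prop :=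
  bG L N b ≤ a ∨ (clokF F (dK L N b a) (dP L N b a) (dX L N b a) ∧
    sok b (dJ N b a) m (dT b a) (dT' b a))

theorem ok_num {T : Tab} {N b : ℕ} {F : ℕ → ℕ → ℕ} (hF : IsF T F) (m : ℕ)
    (a : GLet T.length N b) : okN T m a ↔ okn T.length N b F m (gnum a) := by
  unfold okn
  rcases a with ⟨κ, p, x, j, h, t, t', s, u⟩ | ⟨h⟩
  · have h1 := gnum_g_lt κ p x j h t t' s u
    rw [dT'_g, dT_g, dJ_g, dX_g, dP_g, dK_g, clokF_iff hF]
    simp only [okN]
    constructor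
    · intro hh; exact Or.inr hh
    · rintro (hh | hh)
      · omega
      · exact hh
  · rw [gnum_o]
    simp [okN]

/-- allowed label pairs, on numbers -/
def okrn (L N b : ℕ) (F : ℕ → ℕ → ℕ) (m a a' : ℕ) : Prop :=
  samen L N b a a' ∧ okn L N b F (m - 1) a ∧ okn L N b F (min m (N - 1)) a' ∧ (m = 0 → a = a') ∧
    (m = N → a = a')

theorem okr_num {T : Tab} {N b : ℕ} {F : ℕ → ℕ → ℕ} (hF : IsF T F) (m : ℕ)
    (a a' : GLet T.length N b) : okRow T m a a' ↔ okrn T.length N b F m (gnum a) (gnum a') := by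
  unfold okRow okrn
  rw [same_num, ok_num hF, ok_num hF]
  have : a = a' ↔ gnum a = gnum a' := ⟨fun h => by rw [h], gnum_inj⟩
  rw [this]

/-- closed letters, on numbers -/
def closedn (L N b i v : ℕ) : Prop :=
  (v < (b + 1) * ((b + 1) * (L + 6)) ∧ i = 0) ∨ v = bV L b + cV L N b

end Crest.Agent.WLH
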