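import Crest.Agent.WLH.NumF

/-!
# Row 290, module H: checks, bits and slots on numbers
-/

set_option autoImplicit false
set_option linter.unusedSimpArgs false
set_option linter.unusedVariables false

namespace Crest.Agent.WLH

open Crest.Agent.WLM Crest.Agent.WL

/-! ## Decoding checks -/

def cA' (L N b c : ℕ) : ℕ := c % nG L N b
def cA (L N b c : ℕ) : ℕ := c / nG L N b % nG L N b
def cM (L N b c : ℕ) : ℕ := c / nG L N b / nG L N b % (N + 1)
def cX (L N b c : ℕ) : ℕ := c / nG L N b / nG L N b / (N + 1)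
def cI (L N b c : ℕ) : ℕ := (cX L N b c - 1) / (N + 3)
def cJ (L N b c : ℕ) : ℕ := (cX L N b c - 1) % (N + 3)

/-! ## Numbers of bits -/

def hbn (L N b i j m a a' : ℕ) : ℕ :=
  a' + nG L N b * (a + nG L N b * (m + (N + 1) * (j + (N + 3) * i)))
def obn (L N b i m s s' : ℕ) : ℕ := nBH L N b + (s' + nV L N b * (s + nV L N b * (m + (N + 1) * i)))
def vbn (L N b x k a : ℕ) : ℕ := nBH L N b + (nBO L N b + (a + nG L N b * (k + N * x)))

/-- slots on numbers: in check `c`, slot `s` holds the bit `e` -/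
def SLn (L N b : ℕ) (F : ℕ → ℕ → ℕ) (c s e : ℕ) : Prop :=
  (s = 3 ∧ 0 < cM L N b c ∧ e = vbn L N b (cX L N b c) (cM L N b c - 1) (cA L N b c)) ∨
  (s = 4 ∧ cM L N b c < N ∧ e = vbn L N b (cX L N b c) (cM L N b c) (cA' L N b c)) ∨
  (s < 3 ∧ cX L N b c = 0 ∧ e = hbn L N b s 0 (cM L N b c) (cA L N b c) (cA' L N b c)) ∨
  (s = 0 ∧ 0 < cX L N b c ∧
    e = hbn L N b (cI L N b c) (cJ L N b c) (cM L N b c) (cA L N b c) (cA' L N b c)) ∨
  (s = 1 ∧ 0 < cX L N b c ∧ cJ L N b c + 1 < N + 3 ∧
    e = hbn L N b (cI L N b c) (cJ L N b c + 1) (cM L N b c) (cA L N b c) (cA' L N b c)) ∨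
  (s = 1 ∧ 0 < cX L N b c ∧ ¬ cJ L N b c + 1 < N + 3 ∧
    ¬ closedn L N b (cI L N b c) (prjn L N b F (cI L N b c) (cA L N b c)) ∧
    e = obn L N b (cI L N b c) (cM L N b c) (prjn L N b F (cI L N b c) (cA L N b c))
      (prjn L N b F (cI L N b c) (cA' L N b c)))

def ALn (L N b : ℕ) (F : ℕ → ℕ → ℕ) (c : ℕ) : Prop :=
  okrn L N b F (cM L N b c) (cA L N b c) (cA' L N b c)

def TWn (L N b c : ℕ) : Prop := cX L N b c = 0 ∧ cM L N b c = 0 ∧ cA L N b c = bG L N b + 2

section dec
variable {L N b : ℕ}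

theorem dm_mod' {n i : ℕ} (hi : i < n) (X : ℕ) : (i + n * X) % n = i := by
  rw [Nat.add_mul_mod_self_left, Nat.mod_eq_of_lt hi]

theorem dm_div' {n i : ℕ} (hi : i < n) (X : ℕ) : (i + n * X) / n = X := by
  have : 0 < n := lt_of_le_of_lt (Nat.zero_le _) hi
  rw [Nat.add_mul_div_left _ _ this, Nat.div_eq_of_lt hi, Nat.zero_add]

theorem eBC_val (x : Cl' N) (m : Fin (N + 1)) (a a' : GLet L N b) :
    (eBC L N b (((x, m), a), a')).val =
      gnum a' + nG L N b * (gnum a + nG L N b * (m + (N + 1) * (eCol N x).val)) := by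
  rw [← eG_val, ← eG_val]; rfl

theorem cA'_e (x : Cl' N) (m : Fin (N + 1)) (a a' : GLet L N b) :
    cA' L N b (eBC L N b (((x, m), a), a')).val = gnum a' := by
  unfold cA'; rw [eBC_val, dm_mod' (gnum_lt a')]
theorem cA_e (x : Cl' N) (m : Fin (N + 1)) (a a' : GLet L N b) :
    cA L N b (eBC L N b (((x, m), a), a')).val = gnum a := by
  unfold cA; rw [eBC_val, dm_div' (gnum_lt a'), dm_mod' (gnum_lt a)]
theorem cM_e (x : Cl' N) (m : Fin (N + 1)) (a a' : GLet L N b) :
    cM L N b (eBC L N b (((x, m), a), a')).val = m := by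
  unfold cM; rw [eBC_val, dm_div' (gnum_lt a'), dm_div' (gnum_lt a), dm_mod' m.isLt]
theorem cX_e (x : Cl' N) (m : Fin (N + 1)) (a a' : GLet L N b) :
    cX L N b (eBC L N b (((x, m), a), a')).val = (eCol N x).val := by
  unfold cX; rw [eBC_val, dm_div' (gnum_lt a'), dm_div' (gnum_lt a), dm_div' m.isLt]
theorem cI_e (i : Fin 3) (j : Fin (N + 3)) (m : Fin (N + 1)) (a a' : GLet L N b) :
    cI L N b (eBC L N b (((some (i, j), m), a), a')).val = i := by
  unfold cI; rw [cX_e, eCol_some, Nat.add_sub_cancel, dm_div' j.isLt]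
theorem cJ_e (i : Fin 3) (j : Fin (N + 3)) (m : Fin (N + 1)) (a a' : GLet L N b) :
    cJ L N b (eBC L N b (((some (i, j), m), a), a')).val = j := by
  unfold cJ; rw [cX_e, eCol_some, Nat.add_sub_cancel, dm_mod' j.isLt]

theorem eBE_h (i : Fin 3) (j : Fin (N + 3)) (m : Fin (N + 1)) (a a' : GLet L N b) :
    (eBE L N b (Sum.inl ((((i, j), m), a), a'))).val = hbn L N b i j m (gnum a) (gnum a') := by
  unfold hbn; rw [← eG_val, ← eG_val]; rfl

theorem eBE_o (i : Fin 3) (m : Fin (N + 1)) (s s' : VLet L N b) :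
    (eBE L N b (Sum.inr (Sum.inl (((i, m), s), s')))).val = obn L N b i m (vnum s) (vnum s') := by
  unfold obn; rw [← eV_val, ← eV_val]; rfl

theorem eBE_v (x : Cl' N) (k : Fin N) (a : GLet L N b) :
    (eBE L N b (Sum.inr (Sum.inr ((x, k), a)))).val =
      vbn L N b (eCol N x).val k (gnum a) := by
  unfold vbn; rw [← eG_val]; rfl

end dec

theorem eBE_eq {L N b : ℕ} (e e' : BE L N b) :
    e' = e ↔ (eBE L N b e).val = (eBE L N b e').val :=
  ⟨fun h => by rw [h], fun h => (eBE L N b).injective (Fin.ext h.symm)⟩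

theorem AL_iff {T : Tab} {N b : ℕ} {F : ℕ → ℕ → ℕ} (hF : IsF T F) (c : BC T.length N b) :
    ALn T.length N b F (eBC T.length N b c).val ↔ bal T N b c = true := by
  obtain ⟨⟨⟨x, m⟩, a⟩, a'⟩ := c
  unfold ALn bal
  rw [cM_e, cA_e, cA'_e, ← okr_num hF]
  simp

theorem TW_iff {T : Tab} {N b : ℕ} (c : BC T.length N b) :
    TWn T.length N b (eBC T.length N b c).val ↔ btw T N b c = 1 := by
  obtain ⟨⟨⟨x, m⟩, a⟩, a'⟩ := c
  unfold TWn btw
  rw [cX_e, cM_e, cA_e]
  have h1 : (eCol N x).val = 0 ↔ x = none := by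
    rcases x with _ | ⟨i, j⟩
    · simp [eCol_none]
    · simp [eCol_some]
  have h2 : gnum a = bG T.length N b + 2 ↔ oddN (gn a) := by
    rcases a with ⟨κ, p, x, j, h, t, t', s, u⟩ | ⟨h⟩
    · have := gnum_g_lt κ p x j h t t' s u
      simp only [gn, oddN, iff_false]
      omega
    · rw [gnum_o]
      simp only [gn, oddN]
      constructor
      · intro hh; exact Fin.ext (by simpa using hh)
      · rintro rfl; rfl
  rw [h1, h2]
  by_cases h : x = none ∧ m.val = 0 ∧ oddN (gn a)
  · simp only [h.1, h.2.1, h.2.2, and_self, true_and, if_true]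
  · simp only [if_neg h, zero_ne_one, iff_false]
    exact h

theorem bV_cV_pos {L b : ℕ} : (b + 1) * ((b + 1) * (L + 6)) ≤ bV L b := by
  unfold bV
  nlinarith [Nat.zero_le ((L + 6) * (b + 1) * (b + 1))]

theorem closed_num {L N b : ℕ} (i : Fin 3) (s : VLet L N b) :
    closedN i (vname s) ↔ closedn L N b i (vnum s) := by
  unfold closedn
  rcases s with ⟨k, i', x, y⟩ | ⟨κ, p, x, j, h, t, t', s, u⟩ | _ | _
  · have hb : (vnum (.fact k i' x y : VLet L N b)) < bV L b := by
      have := (pE (pE (pE (Equiv.refl (Fin 6)) (L + 6)) (b + 1)) (b + 1) (((k, i'), x), y)).isLt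
      exact this
    have hk : vnum (.fact k i' x y : VLet L N b) < (b + 1) * ((b + 1) * (L + 6)) ↔ k = 0 := by
      show y.val + (b + 1) * (x.val + (b + 1) * (i'.val + (L + 6) * k.val)) < _ ↔ _
      have hy := y.isLt
      have hx := x.isLt
      have hi := i'.isLt
      rw [Nat.mul_comm (b + 1) ((b + 1) * (L + 6)), ← Nat.div_lt_iff_lt_mul (Nat.succ_pos b)]
      have e1 : (y.val + (b + 1) * (x.val + (b + 1) * (i'.val + (L + 6) * k.val))) / (b + 1) =
        x.val + (b + 1) * (i'.val + (L + 6) * k.val) := dm_div y _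
      rw [e1, Nat.mul_comm (b + 1) (L + 6), ← Nat.div_lt_iff_lt_mul (Nat.succ_pos b)]
      have e2 : (x.val + (b + 1) * (i'.val + (L + 6) * k.val)) / (b + 1) =
        i'.val + (L + 6) * k.val := dm_div x _
      rw [e2]
      constructor
      · intro h
        by_contra hk0
        have : 1 ≤ k.val := Nat.one_le_iff_ne_zero.2 fun h0 => hk0 (Fin.ext h0)
        nlinarith
      · rintro rfl
        simp
    simp only [vname, closedN]
    rw [hk]
    constructor
    · rintro ⟨h1, h2⟩
      exact Or.inl ⟨h1, by rw [h2]; rfl⟩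
    · rintro (⟨h1, h2⟩ | h)
      · exact ⟨h1, Fin.ext (by simpa using h2)⟩
      · exfalso
        have : bV L b ≤ bV L b + cV L N b := Nat.le_add_right _ _
        omega
  · have h1 : (bV L b : ℕ) ≤ vnum (.fresh κ p x j h t t' s u : VLet L N b) := Nat.le_add_right _ _
    have h2 : vnum (.fresh κ p x j h t t' s u : VLet L N b) < bV L b + cV L N b := by
      have := (pE (pE (pE (pE (pE (pE (pE (pE (Equiv.refl (Fin 14)) (L + 6)) (L + 6)) N)
        3) (b + 1)) (b + 1)) (b + 1)) (b + 1) ((((((((κ, p), x), j), h), t), t'), s), u)).isLt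
      exact Nat.add_lt_add_left this _
    have h3 := bV_cV_pos (L := L) (b := b)
    simp only [vname, closedN, false_iff, not_or, not_and]
    constructor
    · intro h; omega
    · omega
  · simp [vname, closedN, vnum]
  · have h3 := bV_cV_pos (L := L) (b := b)
    have e : vnum (.vo : VLet L N b) = bV L b + (cV L N b + 1) := rfl
    simp only [vname, closedN, Bool.false_eq_true, false_iff, not_or, not_and]
    constructor
    · intro h; omega
    · omega

theorem SL_iff {T : Tab} {N b : ℕ} {F : ℕ → ℕ → ℕ} (hF : IsF T F) (c : BC T.length N b)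
    (s : Fin 5) (e : BE T.length N b) :
    SLn T.length N b F (eBC T.length N b c).val s.val (eBE T.length N b e).val ↔
      bslot T N b c s = some e := by
  obtain ⟨⟨⟨x, m⟩, a⟩, a'⟩ := c
  have hm := m.isLt
  rcases x with _ | ⟨i, j⟩
  · unfold SLn
    rw [cX_e, cM_e, cA_e, cA'_e, eCol_none]
    fin_cases s
    · show _ ↔ some (Sum.inl ((((0, ⟨0, _⟩), m), a), a')) = some e
      rw [Option.some.injEq, eBE_eq, eBE_h]
      simp
    · show _ ↔ some (Sum.inl ((((1, ⟨0, _⟩), m), a), a')) = some e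
      rw [Option.some.injEq, eBE_eq, eBE_h]
      simp
    · show _ ↔ some (Sum.inl ((((2, ⟨0, _⟩), m), a), a')) = some e
      rw [Option.some.injEq, eBE_eq, eBE_h]
      simp
    · show _ ↔ bslot T N b (((none, m), a), a') 3 = some e
      rw [bslot3]
      by_cases h : 0 < m.val
      · rw [dif_pos h, Option.some.injEq, eBE_eq, eBE_v, eCol_none]
        simp [h]
      · rw [dif_neg h]
        simp [h]
    · show _ ↔ bslot T N b (((none, m), a), a') 4 = some e
      rw [bslot4]
      by_cases h : m.val < N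
      · rw [dif_pos h, Option.some.injEq, eBE_eq, eBE_v, eCol_none]
        simp [h]
      · rw [dif_neg h]
        simp [h]
  · unfold SLn
    have hx : 0 < (eCol N (some (i, j))).val := by rw [eCol_some]; omega
    have hx' : (eCol N (some (i, j))).val ≠ 0 := by omega
    rw [cI_e, cJ_e, cX_e, cM_e, cA_e, cA'_e]
    fin_cases s
    · show _ ↔ some (Sum.inl ((((i, j), m), a), a')) = some e
      rw [Option.some.injEq, eBE_eq, eBE_h]
      simp [hx, hx']
    · show _ ↔ bslot T N b (((some (i, j), m), a), a') 1 = some e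
      rw [bslot1]
      by_cases h : j.val + 1 < N + 3
      · rw [dif_pos h, Option.some.injEq, eBE_eq, eBE_h]
        have h' : j.val < N + 2 := by omega
        simp [hx, hx', h']
      · rw [dif_neg h]
        have h' : ¬ j.val < N + 2 := by omega
        have hcc : closedN i (vname (prj T i a)) ↔
            closedn T.length N b i (prjn T.length N b F i (gnum a)) := by
          rw [closed_num, prj_num hF]
        by_cases hc : closedN i (vname (prj T i a))
        · rw [if_pos hc]
          simp [hx, hx', h', hcc.1 hc]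
        · rw [if_neg hc, Option.some.injEq, eBE_eq, eBE_o, prj_num hF, prj_num hF]
          have hc' : ¬ closedn T.length N b i (prjn T.length N b F i (gnum a)) :=
            fun h => hc (hcc.2 h)
          simp [hx, hx', h', hc']
    · show _ ↔ (none : Option (BE T.length N b)) = some e
      simp [hx']
    · show _ ↔ bslot T N b (((some (i, j), m), a), a') 3 = some e
      rw [bslot3]
      by_cases h : 0 < m.val
      · rw [dif_pos h, Option.some.injEq, eBE_eq, eBE_v]
        simp [h]
      · rw [dif_neg h]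
        simp [h]
    · show _ ↔ bslot T N b (((some (i, j), m), a), a') 4 = some e
      rw [bslot4]
      by_cases h : m.val < N
      · rw [dif_pos h, Option.some.injEq, eBE_eq, eBE_v]
        simp [h]
      · rw [dif_neg h]
        simp [h]

end Crest.Agent.WLH
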