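import Crest.Agent.WLH.NumS
import Crest.Agent.WLX.GXU
import Crest.Agent.WLX.Auto

/-!
# Row 290, module H: the finite system on numbers is polynomial-time computable
-/

set_option autoImplicit false
set_option linter.unusedSimpArgs false
set_option linter.unusedVariables false
set_option linter.unusedSectionVars false

namespace Crest.Agent.WLH

open Crest.Agent.CHR Crest.CountHier Crest.Agent.WLX

/-- accessor functions computable in polynomial time -/
def UNacc (acc : W → ℕ → ℕ → ℕ) : Prop :=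
  ∀ (i : ℕ) (g : W → W) (p : W → ℕ), PolyTime g → UN p → UN (fun z => acc (g z) i (p z))

theorem u_succ {g : W → ℕ} (hg : UN g) : UN (fun w => (g w).succ) :=
  (hg.add (UN.const 1)).congr fun _ => rfl

section fields
variable {acc : W → ℕ → ℕ → ℕ} (hac : UNacc acc) {f : W → W} (hf : PolyTime f)
  {L N b κ p x j h t t' s u k i a a' c ρ m v n e : W → ℕ}
  (hL : UN L) (hN : UN N) (hb : UN b) (hκ : UN κ) (hp : UN p) (hx : UN x) (hj : UN j) (hh : UN h)
  (ht : UN t) (ht' : UN t') (hs : UN s) (hu : UN u) (hk : UN k) (hi : UN i) (ha : UN a)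
  (ha' : UN a') (hc : UN c) (hρ : UN ρ) (hm : UN m) (hv : UN v) (hn : UN n) (he : UN e)

section cl
include hac hf hL hκ hp hx

theorem u_Xk : UN (fun w => fXk (L w) (acc (f w)) (κ w) (p w) (x w)) := by
  have h1 := fun (q : W → ℕ) (hq : UN q) => hac 1 f q hf hq
  have h2 := fun (q : W → ℕ) (hq : UN q) => hac 2 f q hf hq
  have h3 := fun (q : W → ℕ) (hq : UN q) => hac 3 f q hf hq
  have h4 := fun (q : W → ℕ) (hq : UN q) => hac 4 f q hf hq
  have h5 := fun (q : W → ℕ) (hq : UN q) => hac 5 f q hf hq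
  unfold fXk
  up_auto [h1, h2, h3, h4, h5]

theorem u_Xi : UN (fun w => fXi (L w) (acc (f w)) (κ w) (p w) (x w)) := by
  have h1 := fun (q : W → ℕ) (hq : UN q) => hac 1 f q hf hq
  have h2 := fun (q : W → ℕ) (hq : UN q) => hac 2 f q hf hq
  have h3 := fun (q : W → ℕ) (hq : UN q) => hac 3 f q hf hq
  have h4 := fun (q : W → ℕ) (hq : UN q) => hac 4 f q hf hq
  have h5 := fun (q : W → ℕ) (hq : UN q) => hac 5 f q hf hq
  unfold fXi
  up_auto [h1, h2, h3, h4, h5]

theorem u_x1 : UN (fun w => fx1 (L w) (acc (f w)) (κ w) (p w) (x w)) := by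
  have h1 := fun (q : W → ℕ) (hq : UN q) => hac 1 f q hf hq
  have h2 := fun (q : W → ℕ) (hq : UN q) => hac 2 f q hf hq
  have h3 := fun (q : W → ℕ) (hq : UN q) => hac 3 f q hf hq
  have h4 := fun (q : W → ℕ) (hq : UN q) => hac 4 f q hf hq
  have h5 := fun (q : W → ℕ) (hq : UN q) => hac 5 f q hf hq
  unfold fx1
  up_auto [h1, h2, h3, h4, h5]

theorem u_x2 : UN (fun w => fx2 (L w) (acc (f w)) (κ w) (p w) (x w)) := by
  have h1 := fun (q : W → ℕ) (hq : UN q) => hac 1 f q hf hq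
  have h2 := fun (q : W → ℕ) (hq : UN q) => hac 2 f q hf hq
  have h3 := fun (q : W → ℕ) (hq : UN q) => hac 3 f q hf hq
  have h4 := fun (q : W → ℕ) (hq : UN q) => hac 4 f q hf hq
  have h5 := fun (q : W → ℕ) (hq : UN q) => hac 5 f q hf hq
  unfold fx2
  up_auto [h1, h2, h3, h4, h5]

theorem u_Yk : UN (fun w => fYk (L w) (acc (f w)) (κ w) (p w) (x w)) := by
  have h1 := fun (q : W → ℕ) (hq : UN q) => hac 1 f q hf hq
  have h2 := fun (q : W → ℕ) (hq : UN q) => hac 2 f q hf hq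
  have h3 := fun (q : W → ℕ) (hq : UN q) => hac 3 f q hf hq
  have h4 := fun (q : W → ℕ) (hq : UN q) => hac 4 f q hf hq
  have h5 := fun (q : W → ℕ) (hq : UN q) => hac 5 f q hf hq
  unfold fYk
  up_auto [h1, h2, h3, h4, h5]

theorem u_Yi : UN (fun w => fYi (L w) (acc (f w)) (κ w) (p w) (x w)) := by
  have h1 := fun (q : W → ℕ) (hq : UN q) => hac 1 f q hf hq
  have h2 := fun (q : W → ℕ) (hq : UN q) => hac 2 f q hf hq
  have h3 := fun (q : W → ℕ) (hq : UN q) => hac 3 f q hf hq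
  have h4 := fun (q : W → ℕ) (hq : UN q) => hac 4 f q hf hq
  have h5 := fun (q : W → ℕ) (hq : UN q) => hac 5 f q hf hq
  unfold fYi
  up_auto [h1, h2, h3, h4, h5]

theorem u_y1 : UN (fun w => fy1 (L w) (acc (f w)) (κ w) (p w) (x w)) := by
  have h1 := fun (q : W → ℕ) (hq : UN q) => hac 1 f q hf hq
  have h2 := fun (q : W → ℕ) (hq : UN q) => hac 2 f q hf hq
  have h3 := fun (q : W → ℕ) (hq : UN q) => hac 3 f q hf hq
  have h4 := fun (q : W → ℕ) (hq : UN q) => hac 4 f q hf hq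
  have h5 := fun (q : W → ℕ) (hq : UN q) => hac 5 f q hf hq
  unfold fy1
  up_auto [h1, h2, h3, h4, h5]

theorem u_y2 : UN (fun w => fy2 (L w) (acc (f w)) (κ w) (p w) (x w)) := by
  have h1 := fun (q : W → ℕ) (hq : UN q) => hac 1 f q hf hq
  have h2 := fun (q : W → ℕ) (hq : UN q) => hac 2 f q hf hq
  have h3 := fun (q : W → ℕ) (hq : UN q) => hac 3 f q hf hq
  have h4 := fun (q : W → ℕ) (hq : UN q) => hac 4 f q hf hq
  have h5 := fun (q : W → ℕ) (hq : UN q) => hac 5 f q hf hq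
  unfold fy2
  up_auto [h1, h2, h3, h4, h5]

theorem u_Zk : UN (fun w => fZk (L w) (acc (f w)) (κ w) (p w) (x w)) := by
  have h1 := fun (q : W → ℕ) (hq : UN q) => hac 1 f q hf hq
  have h2 := fun (q : W → ℕ) (hq : UN q) => hac 2 f q hf hq
  have h3 := fun (q : W → ℕ) (hq : UN q) => hac 3 f q hf hq
  have h4 := fun (q : W → ℕ) (hq : UN q) => hac 4 f q hf hq
  have h5 := fun (q : W → ℕ) (hq : UN q) => hac 5 f q hf hq
  unfold fZk
  up_auto [h1, h2, h3, h4, h5]

theorem u_Zi : UN (fun w => fZi (L w) (acc (f w)) (κ w) (p w) (x w)) := by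
  have h1 := fun (q : W → ℕ) (hq : UN q) => hac 1 f q hf hq
  have h2 := fun (q : W → ℕ) (hq : UN q) => hac 2 f q hf hq
  have h3 := fun (q : W → ℕ) (hq : UN q) => hac 3 f q hf hq
  have h4 := fun (q : W → ℕ) (hq : UN q) => hac 4 f q hf hq
  have h5 := fun (q : W → ℕ) (hq : UN q) => hac 5 f q hf hq
  unfold fZi
  up_auto [h1, h2, h3, h4, h5]

theorem u_z1 : UN (fun w => fz1 (L w) (acc (f w)) (κ w) (p w) (x w)) := by
  have h1 := fun (q : W → ℕ) (hq : UN q) => hac 1 f q hf hq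
  have h2 := fun (q : W → ℕ) (hq : UN q) => hac 2 f q hf hq
  have h3 := fun (q : W → ℕ) (hq : UN q) => hac 3 f q hf hq
  have h4 := fun (q : W → ℕ) (hq : UN q) => hac 4 f q hf hq
  have h5 := fun (q : W → ℕ) (hq : UN q) => hac 5 f q hf hq
  unfold fz1
  up_auto [h1, h2, h3, h4, h5]

theorem u_z2 : UN (fun w => fz2 (L w) (acc (f w)) (κ w) (p w) (x w)) := by
  have h1 := fun (q : W → ℕ) (hq : UN q) => hac 1 f q hf hq
  have h2 := fun (q : W → ℕ) (hq : UN q) => hac 2 f q hf hq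
  have h3 := fun (q : W → ℕ) (hq : UN q) => hac 3 f q hf hq
  have h4 := fun (q : W → ℕ) (hq : UN q) => hac 4 f q hf hq
  have h5 := fun (q : W → ℕ) (hq : UN q) => hac 5 f q hf hq
  unfold fz2
  up_auto [h1, h2, h3, h4, h5]

theorem u_clok : UP (fun w => clokF (acc (f w)) (κ w) (p w) (x w)) := by
  have h0 := fun (q : W → ℕ) (hq : UN q) => hac 0 f q hf hq
  have h1 := fun (q : W → ℕ) (hq : UN q) => hac 1 f q hf hq
  unfold clokF
  up_auto [h0, h1, u_succ]

end cl

section sizes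
include hL hN hb

theorem u_bG : UN (fun w => bG (L w) (N w) (b w)) := by
  unfold bG; up_auto [UN.mul, u_succ]
theorem u_nG : UN (fun w => nG (L w) (N w) (b w)) := by
  unfold nG bG; up_auto [UN.mul, u_succ]
theorem u_cV : UN (fun w => cV (L w) (N w) (b w)) := by
  unfold cV; up_auto [UN.mul, u_succ]
theorem u_nV : UN (fun w => nV (L w) (N w) (b w)) := by
  unfold nV cV bV; up_auto [UN.mul, u_succ]
theorem u_nBH : UN (fun w => nBH (L w) (N w) (b w)) := by
  have := u_nG hL hN hb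
  unfold nBH; up_auto [UN.mul, u_succ]
theorem u_nBO : UN (fun w => nBO (L w) (N w) (b w)) := by
  have := u_nV hL hN hb
  unfold nBO; up_auto [UN.mul, u_succ]
theorem u_nBV : UN (fun w => nBV (L w) (N w) (b w)) := by
  have := u_nG hL hN hb
  unfold nBV; up_auto [UN.mul, u_succ]
theorem u_nBC : UN (fun w => nBC (L w) (N w) (b w)) := by
  have := u_nG hL hN hb
  unfold nBC; up_auto [UN.mul, u_succ]
theorem u_nBE : UN (fun w => nBH (L w) (N w) (b w) + (nBO (L w) (N w) (b w) +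
    nBV (L w) (N w) (b w))) :=
  (u_nBH hL hN hb).add ((u_nBO hL hN hb).add (u_nBV hL hN hb))

end sizes

theorem u_bV (hL : UN L) (hb : UN b) : UN (fun w => bV (L w) (b w)) := by
  unfold bV; up_auto [UN.mul, u_succ]

theorem u_sel (hk : UN k) (ht : UN t) (ht' : UN t') (hs : UN s) (hu : UN u) :
    UN (fun w => seln (k w) (t w) (t' w) (s w) (u w)) := by
  unfold seln; up_auto [UN.mul, u_succ]

theorem u_fln (hL : UN L) (hb : UN b) (hk : UN k) (hi : UN i) (ha : UN a) (hc : UN c) (ht : UN t)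
    (ht' : UN t') (hs : UN s) (hu : UN u) :
    UN (fun w => fln (L w) (b w) (k w) (i w) (a w) (c w) (t w) (t' w) (s w) (u w)) := by
  have h1 := u_sel hc ht ht' hs hu
  have h2 := u_sel ha ht ht' hs hu
  unfold fln; up_auto [UN.mul, u_succ]

theorem u_rolen (hn : UN n) : UN (fun w => rolen (n w)) := by
  unfold rolen; up_auto [UN.mul, u_succ]

theorem u_frn (hL : UN L) (hN : UN N) (hb : UN b) (hκ : UN κ) (hp : UN p) (hx : UN x) (hj : UN j)
    (hh : UN h) (ht : UN t) (ht' : UN t') (hs : UN s) (hu : UN u) :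
    UN (fun w => frn (L w) (N w) (b w) (κ w) (p w) (x w) (j w) (h w) (t w) (t' w) (s w) (u w)) := by
  have h1 := u_bV hL hb
  have q := hb.add (UN.const 1)
  have l6 := hL.add (UN.const 6)
  unfold frn
  have a1 := hp.add (l6.mul hκ)
  have a2 := hx.add (l6.mul a1)
  have a3 := hj.add (hN.mul a2)
  have a4 := hh.add ((UN.const 3).mul a3)
  have a5 := ht.add (q.mul a4)
  have a6 := ht'.add (q.mul a5)
  have a7 := hs.add (q.mul a6)
  have a8 := hu.add (q.mul a7)
  exact h1.add a8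

theorem u_oln (hL : UN L) (hN : UN N) (hb : UN b) (hn : UN n) :
    UN (fun w => oln (L w) (N w) (b w) (n w)) := by
  have h1 := u_bV hL hb
  have h2 := u_cV hL hN hb
  unfold oln; up_auto [UN.mul, u_succ]

include hac hf in
theorem u_rln (hL : UN L) (hN : UN N) (hb : UN b) (hρ : UN ρ) (hκ : UN κ) (hp : UN p) (hx : UN x)
    (hj : UN j) (ht : UN t) (ht' : UN t') (hs : UN s) (hu : UN u) :
    UN (fun w => rln (L w) (N w) (b w) (acc (f w)) (ρ w) (κ w) (p w) (x w) (j w) (t w) (t' w) (s w)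
      (u w)) := by
  have h1 := u_bV hL hb
  have h2 := u_cV hL hN hb
  have e1 := u_fln hL hb (u_Xk hac hf hL hκ hp hx) (u_Xi hac hf hL hκ hp hx)
    (u_x1 hac hf hL hκ hp hx) (u_x2 hac hf hL hκ hp hx) ht ht' hs hu
  have e2 := u_fln hL hb (u_Yk hac hf hL hκ hp hx) (u_Yi hac hf hL hκ hp hx)
    (u_y1 hac hf hL hκ hp hx) (u_y2 hac hf hL hκ hp hx) ht ht' hs hu
  have e3 := u_fln hL hb (u_Zk hac hf hL hκ hp hx) (u_Zi hac hf hL hκ hp hx)
    (u_z1 hac hf hL hκ hp hx) (u_z2 hac hf hL hκ hp hx) ht ht' hs hu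
  have e4 := u_frn hL hN hb hκ hp hx hj (UN.const 0) ht ht' hs hu
  have e5 := u_frn hL hN hb hκ hp hx hj (UN.const 1) ht ht' hs hu
  have e6 := u_frn hL hN hb hκ hp hx hj (UN.const 2) ht ht' hs hu
  unfold rln
  exact UN.iteI (UP.eqN hρ (UN.const 0)) e1 (UN.iteI (UP.eqN hρ (UN.const 1)) e2
    (UN.iteI (UP.eqN hρ (UN.const 2)) e3 (UN.iteI (UP.eqN hρ (UN.const 3)) e4
      (UN.iteI (UP.eqN hρ (UN.const 4)) e5 (UN.iteI (UP.eqN hρ (UN.const 5)) e6 (h1.add h2))))))

theorem u_dU (hb : UN b) (ha : UN a) : UN (fun w => dU (b w) (a w)) := by unfold dU; up_auto [UN.mul, u_succ]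
theorem u_dS (hb : UN b) (ha : UN a) : UN (fun w => dS (b w) (a w)) := by unfold dS; up_auto [UN.mul, u_succ]
theorem u_dT' (hb : UN b) (ha : UN a) : UN (fun w => dT' (b w) (a w)) := by unfold dT'; up_auto [UN.mul, u_succ]
theorem u_dT (hb : UN b) (ha : UN a) : UN (fun w => dT (b w) (a w)) := by unfold dT; up_auto [UN.mul, u_succ]
theorem u_dN (hb : UN b) (ha : UN a) : UN (fun w => dN (b w) (a w)) := by unfold dN; up_auto [UN.mul, u_succ]
theorem u_dH (hb : UN b) (ha : UN a) : UN (fun w => dH (b w) (a w)) := by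
  have := u_dN hb ha
  unfold dH; up_auto [UN.mul, u_succ]
theorem u_dJ (hN : UN N) (hb : UN b) (ha : UN a) : UN (fun w => dJ (N w) (b w) (a w)) := by
  have := u_dN hb ha
  unfold dJ; up_auto [UN.mul, u_succ]
theorem u_dX (hL : UN L) (hN : UN N) (hb : UN b) (ha : UN a) :
    UN (fun w => dX (L w) (N w) (b w) (a w)) := by
  have := u_dN hb ha
  unfold dX; up_auto [UN.mul, u_succ]
theorem u_dP (hL : UN L) (hN : UN N) (hb : UN b) (ha : UN a) :
    UN (fun w => dP (L w) (N w) (b w) (a w)) := by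
  have := u_dN hb ha
  unfold dP; up_auto [UN.mul, u_succ]
theorem u_dK (hL : UN L) (hN : UN N) (hb : UN b) (ha : UN a) :
    UN (fun w => dK (L w) (N w) (b w) (a w)) := by
  have := u_dN hb ha
  unfold dK; up_auto [UN.mul, u_succ]

include hac hf in
theorem u_prjn (hL : UN L) (hN : UN N) (hb : UN b) (hi : UN i) (ha : UN a) :
    UN (fun w => prjn (L w) (N w) (b w) (acc (f w)) (i w) (a w)) := by
  have h1 := u_bG hL hN hb
  have h2 := u_rolen (n := fun w => 3 * dH (b w) (a w) + i w)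
    (((UN.const 3).mul (u_dH hb ha)).add hi)
  have h3 := u_rln hac hf hL hN hb h2 (u_dK hL hN hb ha) (u_dP hL hN hb ha) (u_dX hL hN hb ha)
    (u_dJ hN hb ha) (u_dT hb ha) (u_dT' hb ha) (u_dS hb ha) (u_dU hb ha)
  have h4 := u_oln (n := fun w => 3 * (a w - bG (L w) (N w) (b w)) + i w) hL hN hb
    (((UN.const 3).mul (ha.sub h1)).add hi)
  unfold prjn; up_auto [UN.mul, u_succ]

theorem u_samen (hL : UN L) (hN : UN N) (hb : UN b) (ha : UN a) (ha' : UN a') :
    UP (fun w => samen (L w) (N w) (b w) (a w) (a' w)) := by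
  have h1 := u_bG hL hN hb
  have h2 := u_dN hb ha
  have h3 := u_dN hb ha'
  unfold samen; up_auto [UN.mul, u_succ]

include hac hf in
theorem u_okn (hL : UN L) (hN : UN N) (hb : UN b) (hm : UN m) (ha : UN a) :
    UP (fun w => okn (L w) (N w) (b w) (acc (f w)) (m w) (a w)) := by
  have h1 := u_bG hL hN hb
  have h2 := u_clok hac hf hL (u_dK hL hN hb ha) (u_dP hL hN hb ha) (u_dX hL hN hb ha)
  have h3 := u_dJ hN hb ha
  have h4 := u_dT hb ha
  have h5 := u_dT' hb ha
  unfold okn sok; up_auto [UN.mul, u_succ]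

include hac hf in
theorem u_okrn (hL : UN L) (hN : UN N) (hb : UN b) (hm : UN m) (ha : UN a) (ha' : UN a') :
    UP (fun w => okrn (L w) (N w) (b w) (acc (f w)) (m w) (a w) (a' w)) := by
  have h1 := u_samen hL hN hb ha ha'
  have h2 := u_okn hac hf hL hN hb (m := fun w => m w - 1) (hm.sub (UN.const 1)) ha
  have h3 := u_okn hac hf hL hN hb (m := fun w => min (m w) (N w - 1))
    (hm.min (hN.sub (UN.const 1))) ha'
  unfold okrn; up_auto [UN.mul, u_succ]

theorem u_closedn (hL : UN L) (hN : UN N) (hb : UN b) (hi : UN i) (hv : UN v) :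
    UP (fun w => closedn (L w) (N w) (b w) (i w) (v w)) := by
  have h1 := u_bV hL hb
  have h2 := u_cV hL hN hb
  unfold closedn; up_auto [UN.mul, u_succ]

section chk
include hL hN hb hc

theorem u_cA' : UN (fun w => cA' (L w) (N w) (b w) (c w)) := by
  have := u_nG hL hN hb
  unfold cA'; up_auto [UN.mul, u_succ]
theorem u_cA : UN (fun w => cA (L w) (N w) (b w) (c w)) := by
  have := u_nG hL hN hb
  unfold cA; up_auto [UN.mul, u_succ]
theorem u_cM : UN (fun w => cM (L w) (N w) (b w) (c w)) := by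
  have := u_nG hL hN hb
  unfold cM; up_auto [UN.mul, u_succ]
theorem u_cX : UN (fun w => cX (L w) (N w) (b w) (c w)) := by
  have := u_nG hL hN hb
  unfold cX; up_auto [UN.mul, u_succ]
theorem u_cI : UN (fun w => cI (L w) (N w) (b w) (c w)) := by
  have := u_cX hL hN hb hc
  unfold cI; up_auto [UN.mul, u_succ]
theorem u_cJ : UN (fun w => cJ (L w) (N w) (b w) (c w)) := by
  have := u_cX hL hN hb hc
  unfold cJ; up_auto [UN.mul, u_succ]

end chk

theorem u_hbn (hL : UN L) (hN : UN N) (hb : UN b) (hi : UN i) (hj : UN j) (hm : UN m) (ha : UN a)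
    (ha' : UN a') :
    UN (fun w => hbn (L w) (N w) (b w) (i w) (j w) (m w) (a w) (a' w)) := by
  have := u_nG hL hN hb
  unfold hbn; up_auto [UN.mul, u_succ]

theorem u_obn (hL : UN L) (hN : UN N) (hb : UN b) (hi : UN i) (hm : UN m) (ha : UN a)
    (ha' : UN a') :
    UN (fun w => obn (L w) (N w) (b w) (i w) (m w) (a w) (a' w)) := by
  have := u_nV hL hN hb
  have := u_nBH hL hN hb
  unfold obn; up_auto [UN.mul, u_succ]

theorem u_vbn (hL : UN L) (hN : UN N) (hb : UN b) (hx : UN x) (hk : UN k) (ha : UN a) :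
    UN (fun w => vbn (L w) (N w) (b w) (x w) (k w) (a w)) := by
  have := u_nG hL hN hb
  have := u_nBH hL hN hb
  have := u_nBO hL hN hb
  unfold vbn; up_auto [UN.mul, u_succ]

include hac hf in
theorem u_SLn (hL : UN L) (hN : UN N) (hb : UN b) (hc : UN c) (hs : UN s) (he : UN e) :
    UP (fun w => SLn (L w) (N w) (b w) (acc (f w)) (c w) (s w) (e w)) := by
  have hA' := u_cA' hL hN hb hc
  have hA := u_cA hL hN hb hc
  have hM := u_cM hL hN hb hc
  have hX := u_cX hL hN hb hc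
  have hI := u_cI hL hN hb hc
  have hJ := u_cJ hL hN hb hc
  have hP := u_prjn hac hf hL hN hb hI hA
  have hP' := u_prjn hac hf hL hN hb hI hA'
  have hC := u_closedn hL hN hb hI hP
  have b1 := u_vbn hL hN hb hX (hM.sub (UN.const 1)) hA
  have b2 := u_vbn hL hN hb hX hM hA'
  have b3 := u_hbn hL hN hb hs (UN.const 0) hM hA hA'
  have b4 := u_hbn hL hN hb hI hJ hM hA hA'
  have b5 := u_hbn hL hN hb hI (hJ.add (UN.const 1)) hM hA hA'
  have b6 := u_obn hL hN hb hI hM hP hP'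
  unfold SLn
  have s0 := UP.eqN hs (UN.const 0)
  have s1 := UP.eqN hs (UN.const 1)
  have x0 := UP.lt (UN.const 0) hX
  have jl := UP.lt (hJ.add (UN.const 1)) (hN.add (UN.const 3))
  exact ((UP.eqN hs (UN.const 3)).and ((UP.lt (UN.const 0) hM).and (UP.eqN he b1))).or
    (((UP.eqN hs (UN.const 4)).and ((UP.lt hM hN).and (UP.eqN he b2))).or
    (((UP.lt hs (UN.const 3)).and ((UP.eqN hX (UN.const 0)).and (UP.eqN he b3))).or
    ((s0.and (x0.and (UP.eqN he b4))).or
    ((s1.and (x0.and (jl.and (UP.eqN he b5)))).or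
    (s1.and (x0.and (jl.not.and (hC.not.and (UP.eqN he b6)))))))))

include hac hf in
theorem u_ALn (hL : UN L) (hN : UN N) (hb : UN b) (hc : UN c) :
    UP (fun w => ALn (L w) (N w) (b w) (acc (f w)) (c w)) := by
  unfold ALn
  exact u_okrn hac hf hL hN hb (u_cM hL hN hb hc) (u_cA hL hN hb hc) (u_cA' hL hN hb hc)

theorem u_TWn (hL : UN L) (hN : UN N) (hb : UN b) (hc : UN c) :
    UP (fun w => TWn (L w) (N w) (b w) (c w)) := by
  have hA := u_cA hL hN hb hc
  have hM := u_cM hL hN hb hc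
  have hX := u_cX hL hN hb hc
  have h1 := u_bG hL hN hb
  unfold TWn; up_auto [UN.mul, u_succ]

end fields

/-! ## Final statements -/

section final
variable {L N b : W → ℕ} {acc : W → ℕ → ℕ → ℕ}

theorem UPs3_SL (hac : UNacc acc) (hL : UN L) (hN : UN N) (hb : UN b) :
    GX.UPs3 (fun w => SLn (L w) (N w) (b w) (acc w)) :=
  fun f c s e hf hc hs he => u_SLn hac hf (hL.comp hf) (hN.comp hf) (hb.comp hf) hc hs he

theorem UPs1_AL (hac : UNacc acc) (hL : UN L) (hN : UN N) (hb : UN b) :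
    GX.UPs1 (fun w => ALn (L w) (N w) (b w) (acc w)) :=
  fun f c hf hc => u_ALn hac hf (hL.comp hf) (hN.comp hf) (hb.comp hf) hc

theorem UPs1_TW (hL : UN L) (hN : UN N) (hb : UN b) :
    GX.UPs1 (fun w => TWn (L w) (N w) (b w)) :=
  fun f c hf hc => u_TWn (hL.comp hf) (hN.comp hf) (hb.comp hf) hc

end final

end Crest.Agent.WLH
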